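import Vale.Agent.P268.Z.Asm
import Vale.Agent.P268.T.BlockStep

/-!
# P268: two reduced isolated germs of multiplicities 3 and 2 with isomorphic Seifert forms

Two sums of chain polynomials in the same number `N ≥ 4` of variables, with the origin as only
critical point, reduced, of multiplicities `3` and `2`, whose integral Seifert matrices are
congruent over `ℤ`.
-/

namespace Vale.Agent.Results.P268.SeifertPair

open Vale.Agent.P268 Vale.Agent.P268.Z

theorem result :
    ∃ (m n N : ℕ) (F : Fin m → List ℕ) (G : Fin n → List ℕ) (e : Vars F ≃ Fin N)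
      (e' : Vars G ≃ Fin N),
      4 ≤ N ∧ (∀ i, ∀ a ∈ F i, 2 ≤ a) ∧ (∀ i, ∀ a ∈ G i, 2 ≤ a) ∧
      Red (fun z : Fin N → ℂ => sumFun F (z ∘ e)) ∧
      Red (fun z : Fin N → ℂ => sumFun G (z ∘ e')) ∧
      (∀ z, fderiv ℂ (fun z : Fin N → ℂ => sumFun F (z ∘ e)) z = 0 → z = 0) ∧
      (∀ z, fderiv ℂ (fun z : Fin N → ℂ => sumFun G (z ∘ e')) z = 0 → z = 0) ∧
      mult (fun z : Fin N → ℂ => sumFun F (z ∘ e)) = 3 ∧
      mult (fun z : Fin N → ℂ => sumFun G (z ∘ e')) = 2 ∧
      Congruent (seifert F) (seifert G) :=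
  pair_of_star star

end Vale.Agent.Results.P268.SeifertPair
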