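import Vale.Agent.P268.T.ZFalse

/-!
# P268: Zariski's multiplicity conjecture is false

There are two reduced germs of holomorphic functions in the same number of variables whose zero
sets are ambiently homeomorphic and whose multiplicities are different.
-/

namespace Vale.Agent.Results.P268.ZariskiMultiplicityFalse

open Vale.Agent.P268

theorem result :
    ∃ (N : ℕ) (f g : (Fin N → ℂ) → ℂ), Red f ∧ Red g ∧ AmbHomeo f g ∧ mult f ≠ mult g :=
  Vale.Agent.P268.T.zariski_false

end Vale.Agent.Results.P268.ZariskiMultiplicityFalse
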