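import Vale.Agent.P268.H671.LargeTop

/-!
# P268: Zariski's multiplicity conjecture fails in every large number of variables

Zariski's question has the answer no, and in every sufficiently large number of variables there
are two reduced weighted homogeneous polynomials with integer coefficients and the origin as the
only critical point, of multiplicities 3 and 2, whose zero sets are exchanged by a homeomorphism of
the whole space fixing the origin.
-/

namespace Vale.Agent.Results.P268.ZariskiMultiplicityLargeN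

open Filter Topology

/-- `f` is analytic at the origin, vanishes there, and its germ has no repeated factor. -/
def Reduced {N : ℕ} (f : (Fin N → ℂ) → ℂ) : Prop :=
  AnalyticAt ℂ f 0 ∧ f 0 = 0 ∧ ∀ u v : (Fin N → ℂ) → ℂ, AnalyticAt ℂ u 0 → AnalyticAt ℂ v 0 →
    u 0 = 0 → ¬ ∀ᶠ z in 𝓝 0, f z = u z ^ 2 * v z

/-- The order of `f` at the origin is `m`: the least order of a nonzero derivative is `m`. -/
def OrderAt {N : ℕ} (f : (Fin N → ℂ) → ℂ) (m : ℕ) : Prop :=
  IsLeast {k : ℕ | iteratedFDeriv ℂ k f 0 ≠ 0} m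

/-- The germs of the zero sets of `f` and `g` at the origin are ambiently homeomorphic. -/
def AmbientlyHomeo {N : ℕ} (f g : (Fin N → ℂ) → ℂ) : Prop :=
  ∃ φ : OpenPartialHomeomorph (Fin N → ℂ) (Fin N → ℂ), 0 ∈ φ.source ∧ φ 0 = 0 ∧
    φ '' ({z | f z = 0} ∩ φ.source) = {z | g z = 0} ∩ φ.target

/-- The function on `ℂ ^ N` given by a polynomial with integer coefficients. -/
noncomputable def fn {N : ℕ} (p : MvPolynomial (Fin N) ℤ) (z : Fin N → ℂ) : ℂ :=
  MvPolynomial.aeval z p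

theorem least_of_mult {N : ℕ} {f : (Fin N → ℂ) → ℂ} {m : ℕ}
    (h : Vale.Agent.P268.mult f = m) (hm : m ≠ 0) : OrderAt f m := by
  have hne : {k : ℕ | iteratedFDeriv ℂ k f 0 ≠ 0}.Nonempty := by
    by_contra h0
    rw [Set.not_nonempty_iff_eq_empty] at h0
    rw [Vale.Agent.P268.mult, h0, Nat.sInf_empty] at h
    exact hm h.symm
  rw [← h]
  exact ⟨Nat.sInf_mem hne, fun k hk => Nat.sInf_le hk⟩

theorem fderiv_eq_zero_of_least {N : ℕ} {f : (Fin N → ℂ) → ℂ} {m : ℕ} (h : OrderAt f m)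
    (hm : 2 ≤ m) : fderiv ℂ f 0 = 0 := by
  have h1 : iteratedFDeriv ℂ 1 f 0 = 0 := by
    by_contra h0
    have := h.2 h0
    omega
  have h2 := norm_iteratedFDeriv_one (𝕜 := ℂ) (f := f) (x := 0)
  rw [h1, norm_zero] at h2
  exact norm_eq_zero.mp h2.symm

theorem result :
    (¬ ∀ N ≥ 1, ∀ f g : (Fin N → ℂ) → ℂ, Reduced f → Reduced g → AmbientlyHomeo f g →
      ∀ m n : ℕ, OrderAt f m → OrderAt g n → m = n) ∧
    ∃ N₀ : ℕ, ∀ N ≥ N₀, ∃ (p q : MvPolynomial (Fin N) ℤ) (φ : (Fin N → ℂ) ≃ₜ (Fin N → ℂ)),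
      φ 0 = 0 ∧ φ '' {z | fn p z = 0} = {z | fn q z = 0} ∧
      OrderAt (fn p) 3 ∧ OrderAt (fn q) 2 ∧
      ∀ r : MvPolynomial (Fin N) ℤ, r = p ∨ r = q →
        Reduced (fn r) ∧ (∀ z : Fin N → ℂ, fderiv ℂ (fn r) z = 0 ↔ z = 0) ∧
        ∃ (w : Fin N → ℕ) (d : ℕ), (∀ i, 0 < w i) ∧ r.IsWeightedHomogeneous w d := by
  obtain ⟨N₀, hN₀⟩ := Vale.Agent.P268.H671.large
  refine ⟨fun H => ?_, N₀, fun N hN => ?_⟩
  · obtain ⟨p, q, φ, h0, hφ, hp, hq, hr⟩ := hN₀ (N₀ + 1) (Nat.le_succ N₀)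
    obtain ⟨hp1, -⟩ := hr p (Or.inl rfl)
    obtain ⟨hq1, -⟩ := hr q (Or.inr rfl)
    have h32 := H (N₀ + 1) (Nat.succ_pos N₀) (fn p) (fn q) hp1 hq1
      ⟨φ.toOpenPartialHomeomorph, Set.mem_univ _, h0, ?_⟩ 3 2
      (least_of_mult hp (by norm_num)) (least_of_mult hq (by norm_num))
    · exact absurd h32 (by norm_num)
    · ext y
      constructor
      · rintro ⟨x, ⟨hx, -⟩, rfl⟩
        exact ⟨(hφ x).mp hx, Set.mem_univ _⟩
      · rintro ⟨hy, -⟩
        refine ⟨φ.symm y, ⟨(hφ _).mpr ?_, Set.mem_univ _⟩, φ.apply_symm_apply y⟩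
        rw [φ.apply_symm_apply]
        exact hy
  · obtain ⟨p, q, φ, h0, hφ, hp, hq, hr⟩ := hN₀ N hN
    have hp' : OrderAt (fn p) 3 := least_of_mult hp (by norm_num)
    have hq' : OrderAt (fn q) 2 := least_of_mult hq (by norm_num)
    refine ⟨p, q, φ, h0, ?_, hp', hq', ?_⟩
    · ext y
      constructor
      · rintro ⟨x, hx, rfl⟩
        exact (hφ x).mp hx
      · intro hy
        refine ⟨φ.symm y, (hφ _).mpr ?_, φ.apply_symm_apply y⟩
        rw [φ.apply_symm_apply]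
        exact hy
    · intro r hr'
      obtain ⟨h1, h4, h5⟩ := hr r hr'
      refine ⟨h1, fun z => ⟨h4 z, ?_⟩, h5⟩
      rintro rfl
      rcases hr' with rfl | rfl
      · exact fderiv_eq_zero_of_least hp' (by norm_num)
      · exact fderiv_eq_zero_of_least hq' (by norm_num)

end Vale.Agent.Results.P268.ZariskiMultiplicityLargeN
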