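import Vale.Agent.P268.Z.Asm

/-!
# P268: Zariski's multiplicity conjecture fails, given the published topological classification

First part (no hypothesis): two sums of chain polynomials in the same number `N ≥ 4` of variables,
with the origin as only critical point, reduced, of multiplicities `3` and `2`, whose integral
Seifert matrices are congruent over `ℤ`.

Second part: the hypothesis is the published theorem (Durfee 1974, Kato 1974 for `N ≥ 4`, with the
Thom-Sebastiani theorem and the Seifert matrices of chain polynomials) that sums of chain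
polynomials with congruent Seifert matrices are ambiently homeomorphic; the conclusion is that
there are ambiently homeomorphic reduced germs of different multiplicities.
-/

namespace Vale.Agent.Results.P268.ZariskiOfClassification

open Vale.Agent.P268 Vale.Agent.P268.Z

theorem result :
    (∃ (m n N : ℕ) (F : Fin m → List ℕ) (G : Fin n → List ℕ) (e : Vars F ≃ Fin N)
      (e' : Vars G ≃ Fin N),
      4 ≤ N ∧ (∀ i, ∀ a ∈ F i, 2 ≤ a) ∧ (∀ i, ∀ a ∈ G i, 2 ≤ a) ∧
      Red (fun z : Fin N → ℂ => sumFun F (z ∘ e)) ∧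
      Red (fun z : Fin N → ℂ => sumFun G (z ∘ e')) ∧
      (∀ z, fderiv ℂ (fun z : Fin N → ℂ => sumFun F (z ∘ e)) z = 0 → z = 0) ∧
      (∀ z, fderiv ℂ (fun z : Fin N → ℂ => sumFun G (z ∘ e')) z = 0 → z = 0) ∧
      mult (fun z : Fin N → ℂ => sumFun F (z ∘ e)) = 3 ∧
      mult (fun z : Fin N → ℂ => sumFun G (z ∘ e')) = 2 ∧
      Congruent (seifert F) (seifert G)) ∧
    ((∀ (m n N : ℕ) (F : Fin m → List ℕ) (G : Fin n → List ℕ) (e : Vars F ≃ Fin N)
        (e' : Vars G ≃ Fin N), 4 ≤ N → (∀ i, ∀ a ∈ F i, 2 ≤ a) → (∀ i, ∀ a ∈ G i, 2 ≤ a) →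
        Congruent (seifert F) (seifert G) →
        AmbHomeo (fun z : Fin N → ℂ => sumFun F (z ∘ e)) (fun z => sumFun G (z ∘ e'))) →
      ∃ (N : ℕ) (f g : (Fin N → ℂ) → ℂ), Red f ∧ Red g ∧ AmbHomeo f g ∧ mult f ≠ mult g) :=
  ⟨pair_of_star star, zariski_of_star star⟩

end Vale.Agent.Results.P268.ZariskiOfClassification
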